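import Vale.Agent.Lib.P361.GMain

namespace Vale.Agent.Results.P361.BlochSharpUpper

open Vale.Agent.Lib.P361.Gen

/-- One-sided Bloch `T^{3/2}` law with the sharp spin-wave constant, for every spin `S = d/2`
(`d ≥ 1`): for every `ε > 0` there is `β₀` such that for all `β ≥ β₀`, every right derivative `m` at
`h = 0` of the pressure of the spin-`S` Heisenberg ferromagnet on `ℤ³` satisfies
`β^{3/2} (S - m) ≥ ζ(3/2) / (8 π^{3/2} S^{3/2}) - ε`. -/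
theorem result : ∀ d : ℕ, 1 ≤ d → ∀ ε : ℝ, 0 < ε → ∃ β₀ : ℝ, 0 < β₀ ∧ ∀ β : ℝ, β₀ ≤ β → ∀ m : ℝ,
    HasDerivWithinAt (pressure d β) m (Set.Ioi 0) 0 →
      (riemannZeta (3 / 2)).re / (8 * Real.pi ^ (3 / 2 : ℝ) * ((d : ℝ) / 2) ^ (3 / 2 : ℝ)) - ε ≤
        β ^ (3 / 2 : ℝ) * ((d : ℝ) / 2 - m) :=
  fun d hd ε hε => bloch_upper d hd ε hε

end Vale.Agent.Results.P361.BlochSharpUpper
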