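import Vale.Agent.Lib.P361.GConvex

namespace Vale.Agent.Results.P361.BlochSharpUpperExist

open Vale.Agent.Lib.P361.Gen

/-- One-sided Bloch `T^{3/2}` law with the sharp spin-wave constant, for every spin `S = d/2`
(`d ≥ 1`), in unconditional form: the pressure is convex in the field, and for every `ε > 0` there is
`β₀` such that for all `β ≥ β₀` the right derivative `m` at `h = 0` of the pressure of the spin-`S`
Heisenberg ferromagnet on `ℤ³` exists and satisfies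
`β^{3/2} (S - m) ≥ ζ(3/2) / (8 π^{3/2} S^{3/2}) - ε`. -/
theorem result : ∀ d : ℕ, 1 ≤ d →
    (∀ β : ℝ, 0 < β → ConvexOn ℝ Set.univ (pressure d β)) ∧
    ∀ ε : ℝ, 0 < ε → ∃ β₀ : ℝ, 0 < β₀ ∧ ∀ β : ℝ, β₀ ≤ β → ∃ m : ℝ,
      HasDerivWithinAt (pressure d β) m (Set.Ioi 0) 0 ∧
        (riemannZeta (3 / 2)).re / (8 * Real.pi ^ (3 / 2 : ℝ) * ((d : ℝ) / 2) ^ (3 / 2 : ℝ)) - ε ≤
          β ^ (3 / 2 : ℝ) * ((d : ℝ) / 2 - m) := by
  intro d hd
  refine ⟨fun β hβ => pressure_convex d β hβ, fun ε hε => ?_⟩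
  obtain ⟨β₀, hβ₀, hb⟩ := bloch_upper d hd ε hε
  exact ⟨β₀, hβ₀, fun β hβ => ⟨_, pressure_right_deriv d β (hβ₀.trans_le hβ),
    hb β hβ _ (pressure_right_deriv d β (hβ₀.trans_le hβ))⟩⟩

end Vale.Agent.Results.P361.BlochSharpUpperExist
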