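import Vale.Agent.Lib.P361.GFull

namespace Vale.Agent.Results.P361.BlochSharpUpperLimit

open Vale.Agent.Lib.P361.Gen

/-- For every spin `S = d/2` (`d ≥ 1`), for the nearest-neighbour Heisenberg ferromagnet on `ℤ³`:
the thermodynamic limit of the pressure exists, the pressure is convex in the field, its right
derivative `m` at zero field (the spontaneous magnetization) exists and lies in `[0, S]`, and the
one-sided Bloch `T^{3/2}` law holds with the sharp spin-wave constant: for every `ε > 0` and all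
large `β`, `β^{3/2} (S - m) ≥ ζ(3/2) / (8 π^{3/2} S^{3/2}) - ε`. -/
theorem result : ∀ d : ℕ, 1 ≤ d →
    (∀ β : ℝ, 0 < β → ∀ h : ℝ, Filter.Tendsto (fun N : ℕ =>
      Real.log (partitionFn d N β h) / (β * ((box N).card : ℝ))) Filter.atTop
        (nhds (pressure d β h))) ∧
    (∀ β : ℝ, 0 < β → ConvexOn ℝ Set.univ (pressure d β)) ∧
    (∀ β : ℝ, 0 < β → ∃ m : ℝ, HasDerivWithinAt (pressure d β) m (Set.Ioi 0) 0 ∧ 0 ≤ m ∧
      m ≤ (d : ℝ) / 2) ∧
    ∀ ε : ℝ, 0 < ε → ∃ β₀ : ℝ, 0 < β₀ ∧ ∀ β : ℝ, β₀ ≤ β → ∃ m : ℝ,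
      HasDerivWithinAt (pressure d β) m (Set.Ioi 0) 0 ∧
        (riemannZeta (3 / 2)).re / (8 * Real.pi ^ (3 / 2 : ℝ) * ((d : ℝ) / 2) ^ (3 / 2 : ℝ)) - ε ≤
          β ^ (3 / 2 : ℝ) * ((d : ℝ) / 2 - m) :=
  fun d hd => bloch_full d hd

end Vale.Agent.Results.P361.BlochSharpUpperLimit
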