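import Vale.Agent.Lib.P361.GRate2

namespace Vale.Agent.Results.P361.BlochSharpUpperRate

open Vale.Agent.Lib.P361.Gen

/-- For every spin `S = d/2` (`d ≥ 1`), for the nearest-neighbour Heisenberg ferromagnet on `ℤ³`:
the thermodynamic limit of the pressure exists, the pressure is convex in the field, and there is a
constant `C` such that for every `β > 0` the right derivative `m` of the pressure at zero field (the
spontaneous magnetization) exists, lies in `[0, S]` and satisfies the quantitative one-sided Bloch law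
`β^{3/2} (S - m) ≥ ζ(3/2) / (8 π^{3/2} S^{3/2}) - C β^{-3/2}`. -/
theorem result : ∀ d : ℕ, 1 ≤ d →
    (∀ β : ℝ, 0 < β → ∀ h : ℝ, Filter.Tendsto (fun N : ℕ =>
      Real.log (partitionFn d N β h) / (β * ((box N).card : ℝ))) Filter.atTop
        (nhds (pressure d β h))) ∧
    (∀ β : ℝ, 0 < β → ConvexOn ℝ Set.univ (pressure d β)) ∧
    ∃ C : ℝ, ∀ β : ℝ, 0 < β → ∃ m : ℝ, HasDerivWithinAt (pressure d β) m (Set.Ioi 0) 0 ∧ 0 ≤ m ∧
      m ≤ (d : ℝ) / 2 ∧
      (riemannZeta (3 / 2)).re / (8 * Real.pi ^ (3 / 2 : ℝ) * ((d : ℝ) / 2) ^ (3 / 2 : ℝ)) -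
        C / β ^ (3 / 2 : ℝ) ≤ β ^ (3 / 2 : ℝ) * ((d : ℝ) / 2 - m) :=
  fun d hd => bloch_full_rate d hd

end Vale.Agent.Results.P361.BlochSharpUpperRate
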